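import Vale.Agent.P280.S.H847.Hom

/-! P280 S, row T: tools for graded homomorphisms into polynomial rings. -/

open DirectSum Polynomial

namespace Vale.Agent.P280.S

section untwist

variable {R : Type} [CommRing R] [Algebra ℂ R] (𝒜 : ℕ → Submodule ℂ R) [GradedAlgebra 𝒜]

/-- The component of degree `d`, as a linear map. -/
noncomputable def comp1 (d : ℕ) : R →ₗ[ℂ] R where
  toFun r := (decompose 𝒜 r d : R)
  map_add' a b := by
    rw [decompose_add]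
    rfl
  map_smul' c a := by
    rw [decompose_smul]
    rfl

theorem comp1_mem (d : ℕ) (r : R) : comp1 𝒜 d r ∈ 𝒜 d := (decompose 𝒜 r d).2

theorem comp1_of_mem {d : ℕ} {h : R} (hh : h ∈ 𝒜 d) : comp1 𝒜 d h = h :=
  decompose_of_mem_same 𝒜 hh

/-- Division of a graded homomorphism by the powers of an element. -/
theorem exists_untwist {B : Type*} [CommRing B] [IsDomain B] [Algebra ℂ B] (u : B) (hu : u ≠ 0)
    (g : R →ₐ[ℂ] B) (hg : ∀ d, ∀ h ∈ 𝒜 d, u ^ d ∣ g h) :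
    ∃ g1 : R →ₐ[ℂ] B, ∀ d, ∀ h ∈ 𝒜 d, g h = u ^ d * g1 h := by
  have hex : ∀ (d : ℕ) (r : R), ∃ b, g (comp1 𝒜 d r) = u ^ d * b := fun d r =>
    hg d _ (comp1_mem 𝒜 d r)
  choose F hF using hex
  have hinj : ∀ d, ∀ a b : B, u ^ d * a = u ^ d * b → a = b := fun d a b h =>
    mul_left_cancel₀ (pow_ne_zero d hu) h
  let f : ℕ → R →ₗ[ℂ] B := fun d =>
    { toFun := F d
      map_add' := fun a b => hinj d _ _ (by
        rw [← hF, map_add, map_add, hF, hF, mul_add])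
      map_smul' := fun c a => hinj d _ _ (by
        rw [← hF, map_smul, map_smul, hF, RingHom.id_apply, mul_smul_comm]) }
  have hf : ∀ d, ∀ h ∈ 𝒜 d, g h = u ^ d * f d h := fun d h hh => by
    have h1 := hF d h
    rwa [comp1_of_mem 𝒜 hh] at h1
  refine ⟨mkHom 𝒜 f ?_ ?_, fun d h hh => ?_⟩
  · refine hinj 0 _ _ ?_
    rw [← hf 0 1 SetLike.GradedOne.one_mem, map_one, pow_zero, one_mul]
  · intro i j a ha b hb
    refine hinj (i + j) _ _ ?_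
    rw [← hf (i + j) (a * b) (SetLike.mul_mem_graded ha hb), map_mul, hf i a ha, hf j b hb,
      pow_add]
    ring
  · rw [mkHom_apply 𝒜 hh]
    exact hf d h hh

/-- Divisibility by powers follows from divisibility in degree one. -/
theorem dvd_of_gen (hgen : Algebra.adjoin ℂ {h : R | h ∈ 𝒜 1} = ⊤) {B : Type*} [CommRing B]
    [Algebra ℂ B] (u : B) (g : R →ₐ[ℂ] B) (hg : ∀ h ∈ 𝒜 1, u ∣ g h) :
    ∀ d, ∀ h ∈ 𝒜 d, u ^ d ∣ g h := by
  let S : Subalgebra ℂ B[X] :=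
    { carrier := {p | ∀ d, u ^ d ∣ p.coeff d}
      mul_mem' := by
        intro a b ha hb d
        rw [coeff_mul]
        refine Finset.dvd_sum fun x hx => ?_
        rw [← Finset.HasAntidiagonal.mem_antidiagonal.1 hx, pow_add]
        exact mul_dvd_mul (ha _) (hb _)
      add_mem' := by
        intro a b ha hb d
        rw [coeff_add]
        exact dvd_add (ha d) (hb d)
      algebraMap_mem' := by
        intro c d
        rcases Nat.eq_zero_or_pos d with rfl | hd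
        · rw [pow_zero]
          exact one_dvd _
        · rw [Polynomial.algebraMap_apply, coeff_C_of_ne_zero hd.ne']
          exact dvd_zero _ }
  let G : R →ₐ[ℂ] B[X] := twist 𝒜 (X : B[X]) ((Algebra.ofId B B[X]).restrictScalars ℂ |>.comp g)
  have hG : ∀ d, ∀ h ∈ 𝒜 d, G h = X ^ d * C (g h) := fun d h hh => by
    have h1 : G h = X ^ d * ((Algebra.ofId B B[X]).restrictScalars ℂ |>.comp g) h :=
      twist_apply 𝒜 hh
    rw [h1]
    rfl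
  have hle : (⊤ : Subalgebra ℂ R) ≤ S.comap G := by
    rw [← hgen, Algebra.adjoin_le_iff]
    intro h hh d
    change u ^ d ∣ (G h).coeff d
    rw [hG 1 h hh, coeff_X_pow_mul']
    split_ifs with h1
    · by_cases hd : d = 1
      · subst hd
        rw [Nat.sub_self, coeff_C_zero, pow_one]
        exact hg h hh
      · rw [coeff_C_of_ne_zero (by omega)]
        exact dvd_zero _
    · exact dvd_zero _
  intro d h hh
  have h1 := hle (Algebra.mem_top : h ∈ (⊤ : Subalgebra ℂ R)) d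
  have h2 : (G h).coeff d = g h := by
    rw [hG d h hh, coeff_X_pow_mul', if_pos le_rfl, Nat.sub_self, coeff_C_zero]
  have h3 : u ^ d ∣ (G h).coeff d := h1
  rwa [h2] at h3

end untwist

section poly

variable {R : Type} [CommRing R] [Algebra ℂ R] (𝒜 : ℕ → Submodule ℂ R) [GradedAlgebra 𝒜]
variable {k : Type} [Field k] [Algebra ℂ k]

/-- Division of a weak curve by the powers of a polynomial (a base locus). -/
theorem exists_divide_poly {e : ℕ} {ψ : R →ₐ[ℂ] k[X]} (hψ : Deg 𝒜 e ψ) (u : k[X]) (hu : u ≠ 0)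
    (hue : u.natDegree ≤ e) (hdvd : ∀ d, ∀ h ∈ 𝒜 d, u ^ d ∣ ψ h) :
    ∃ ψ1 : R →ₐ[ℂ] k[X], (∀ d, ∀ h ∈ 𝒜 d, ψ h = u ^ d * ψ1 h) ∧
      Deg 𝒜 (e - u.natDegree) ψ1 ∧
      (∀ q : R →ₐ[ℂ] k, u.coeff 0 ≠ 0 → Starts 𝒜 ψ q → Starts 𝒜 ψ1 q) ∧
      (∀ q : R →ₐ[ℂ] k, Ends 𝒜 e ψ q → Ends 𝒜 (e - u.natDegree) ψ1 q) := by
  obtain ⟨ψ1, h1⟩ := exists_untwist 𝒜 u hu ψ hdvd
  have hdeg : Deg 𝒜 (e - u.natDegree) ψ1 := by
    intro d h hh
    by_cases h0 : ψ1 h = 0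
    · rw [h0, natDegree_zero]
      exact Nat.zero_le _
    · have h2 := hψ d h hh
      rw [h1 d h hh, natDegree_mul (pow_ne_zero d hu) h0, natDegree_pow] at h2
      rw [Nat.mul_sub]
      omega
  refine ⟨ψ1, h1, hdeg, ?_, ?_⟩
  · rintro q hu0 ⟨c, hc, hcq⟩
    refine ⟨c / u.coeff 0, div_ne_zero hc hu0, fun d h hh => ?_⟩
    have h2 := hcq d h hh
    have h3 : (u ^ d).coeff 0 = u.coeff 0 ^ d := by
      rw [coeff_zero_eq_eval_zero, coeff_zero_eq_eval_zero, eval_pow]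
    rw [h1 d h hh, mul_coeff_zero, h3] at h2
    rw [div_pow, div_mul_eq_mul_div, eq_div_iff (pow_ne_zero d hu0), ← h2]
    ring
  · rintro q ⟨c, hc, hcq⟩
    have hl : u.leadingCoeff ≠ 0 := leadingCoeff_ne_zero.2 hu
    refine ⟨c / u.leadingCoeff, div_ne_zero hc hl, fun d h hh => ?_⟩
    have h2 := hcq d h hh
    have h3 : d * e = d * u.natDegree + d * (e - u.natDegree) := by
      rw [← Nat.mul_add, Nat.add_sub_cancel' hue]
    have h4 : (u ^ d).natDegree ≤ d * u.natDegree := natDegree_pow_le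
    rw [h1 d h hh, h3, coeff_mul_add_eq_of_natDegree_le h4 (hdeg d h hh)] at h2
    have h5 : (u ^ d).coeff (d * u.natDegree) = u.leadingCoeff ^ d := by
      rw [← natDegree_pow, coeff_natDegree, leadingCoeff_pow]
    rw [h5] at h2
    rw [div_pow, div_mul_eq_mul_div, eq_div_iff (pow_ne_zero d hl), ← h2]
    ring

/-- Division of a weak curve by the powers of `X - a`, `a ≠ 0`. -/
theorem exists_divide_X_sub_C {e : ℕ} (he : 1 ≤ e) {ψ : R →ₐ[ℂ] k[X]} (hψ : Deg 𝒜 e ψ) {a : k}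
    (ha : a ≠ 0) (hdvd : ∀ d, ∀ h ∈ 𝒜 d, (X - C a) ^ d ∣ ψ h) :
    ∃ ψ1 : R →ₐ[ℂ] k[X], (∀ d, ∀ h ∈ 𝒜 d, ψ h = (X - C a) ^ d * ψ1 h) ∧
      Deg 𝒜 (e - 1) ψ1 ∧ (∀ q : R →ₐ[ℂ] k, Starts 𝒜 ψ q → Starts 𝒜 ψ1 q) ∧
      (∀ q : R →ₐ[ℂ] k, Ends 𝒜 e ψ q → Ends 𝒜 (e - 1) ψ1 q) := by
  obtain ⟨ψ1, h1, h2, h3, h4⟩ := exists_divide_poly 𝒜 hψ (X - C a) (X_sub_C_ne_zero a)
    (by rw [natDegree_X_sub_C]; exact he) hdvd
  rw [natDegree_X_sub_C] at h2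
  refine ⟨ψ1, h1, h2, fun q hq => h3 q ?_ hq, fun q hq => ?_⟩
  · rw [coeff_sub, coeff_X_zero, coeff_C_zero, zero_sub]
    exact neg_ne_zero.2 ha
  · have h5 := h4 q hq
    rwa [natDegree_X_sub_C] at h5

/-- If a weak curve of degree `e` passes through the vertex at the parameter `a ≠ 0`, then it can
be divided by `X - a`. -/
theorem exists_divide_of_eval (hgen : Algebra.adjoin ℂ {h : R | h ∈ 𝒜 1} = ⊤) {e : ℕ}
    (he : 1 ≤ e) {ψ : R →ₐ[ℂ] k[X]} (hψ : Deg 𝒜 e ψ) {a : k} (ha : a ≠ 0)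
    (h0 : ∀ h ∈ 𝒜 1, (ψ h).eval a = 0) :
    ∃ ψ1 : R →ₐ[ℂ] k[X], (∀ d, ∀ h ∈ 𝒜 d, ψ h = (X - C a) ^ d * ψ1 h) ∧
      Deg 𝒜 (e - 1) ψ1 ∧ (∀ q : R →ₐ[ℂ] k, Starts 𝒜 ψ q → Starts 𝒜 ψ1 q) ∧
      (∀ q : R →ₐ[ℂ] k, Ends 𝒜 e ψ q → Ends 𝒜 (e - 1) ψ1 q) :=
  exists_divide_X_sub_C 𝒜 he hψ ha (dvd_of_gen 𝒜 hgen _ ψ fun h hh =>
    dvd_iff_isRoot.2 (h0 h hh))

/-- `Polynomial.reflect` as a linear map over `ℂ`. -/
noncomputable def reflectL (N : ℕ) : k[X] →ₗ[ℂ] k[X] where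
  toFun p := p.reflect N
  map_add' a b := reflect_add a b N
  map_smul' c a := by
    rw [RingHom.id_apply, algebra_compatible_smul k c a, algebra_compatible_smul k c (reflect N a),
      smul_eq_C_mul, smul_eq_C_mul, reflect_C_mul]

/-- The curve `ψ` of degree `e` with the parameter reversed. -/
noncomputable def rev {e : ℕ} {ψ : R →ₐ[ℂ] k[X]} (hψ : Deg 𝒜 e ψ) : R →ₐ[ℂ] k[X] :=
  mkHom 𝒜 (fun d => (reflectL (d * e)).comp ψ.toLinearMap)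
    (by
      simp only [LinearMap.comp_apply, AlgHom.toLinearMap_apply, map_one, reflectL,
        LinearMap.coe_mk, AddHom.coe_mk, Nat.zero_mul]
      exact reflect_one 0 |>.trans (pow_zero X))
    (by
      intro i j a ha b hb
      simp only [LinearMap.comp_apply, AlgHom.toLinearMap_apply, map_mul, reflectL,
        LinearMap.coe_mk, AddHom.coe_mk]
      rw [Nat.add_mul]
      exact reflect_mul _ _ (hψ i a ha) (hψ j b hb))

theorem rev_apply {e : ℕ} {ψ : R →ₐ[ℂ] k[X]} (hψ : Deg 𝒜 e ψ) {d : ℕ} {h : R} (hh : h ∈ 𝒜 d) :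
    rev 𝒜 hψ h = (ψ h).reflect (d * e) := by
  rw [rev, mkHom_apply 𝒜 hh]
  rfl

theorem rev_coeff {e : ℕ} {ψ : R →ₐ[ℂ] k[X]} (hψ : Deg 𝒜 e ψ) {d : ℕ} {h : R} (hh : h ∈ 𝒜 d)
    {i : ℕ} (hi : i ≤ d * e) : (rev 𝒜 hψ h).coeff i = (ψ h).coeff (d * e - i) := by
  rw [rev_apply 𝒜 hψ hh, coeff_reflect, revAt_le hi]

theorem rev_deg {e : ℕ} {ψ : R →ₐ[ℂ] k[X]} (hψ : Deg 𝒜 e ψ) : Deg 𝒜 e (rev 𝒜 hψ) := by
  intro d h hh
  rw [rev_apply 𝒜 hψ hh]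
  exact (natDegree_le_iff_coeff_eq_zero.2 fun i hi => by
    rw [coeff_reflect, revAt_eq_self_of_lt hi]
    exact coeff_eq_zero_of_natDegree_lt ((hψ d h hh).trans_lt hi))

theorem rev_starts {e : ℕ} {ψ : R →ₐ[ℂ] k[X]} (hψ : Deg 𝒜 e ψ) {q : R →ₐ[ℂ] k}
    (h : Ends 𝒜 e ψ q) : Starts 𝒜 (rev 𝒜 hψ) q := by
  obtain ⟨c, hc, hcq⟩ := h
  refine ⟨c, hc, fun d h hh => ?_⟩
  rw [rev_coeff 𝒜 hψ hh (Nat.zero_le _), Nat.sub_zero, hcq d h hh]

theorem rev_ends {e : ℕ} {ψ : R →ₐ[ℂ] k[X]} (hψ : Deg 𝒜 e ψ) {q : R →ₐ[ℂ] k}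
    (h : Starts 𝒜 ψ q) : Ends 𝒜 e (rev 𝒜 hψ) q := by
  obtain ⟨c, hc, hcq⟩ := h
  refine ⟨c, hc, fun d h hh => ?_⟩
  rw [rev_coeff 𝒜 hψ hh le_rfl, Nat.sub_self, hcq d h hh]

theorem rev_rev {e : ℕ} {ψ : R →ₐ[ℂ] k[X]} (hψ : Deg 𝒜 e ψ) :
    rev 𝒜 (rev_deg 𝒜 hψ) = ψ := by
  refine hom_ext_hom 𝒜 fun d h hh => ?_
  rw [rev_apply 𝒜 _ hh, rev_apply 𝒜 hψ hh]
  ext i
  rw [coeff_reflect, coeff_reflect, revAt_invol]

end poly

section chains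

variable {R : Type} [CommRing R] [Algebra ℂ R] (𝒜 : ℕ → Submodule ℂ R)
variable {k : Type} [Field k] [Algebra ℂ k]

theorem Ch.nv_right {n : ℕ} {p q : R →ₐ[ℂ] k} (h : Ch 𝒜 k n p q) : NV 𝒜 q := by
  cases h with
  | refl _ h => exact h
  | step _ _ _ _ _ _ _ h _ _ _ => exact h

theorem Ch.nv_left {n : ℕ} {p q : R →ₐ[ℂ] k} (h : Ch 𝒜 k n p q) : NV 𝒜 p := by
  induction h with
  | refl _ h => exact h
  | step _ _ _ _ _ _ _ _ _ _ _ ih => exact ih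

theorem Ch.trans {n m : ℕ} {p q r : R →ₐ[ℂ] k} (h : Ch 𝒜 k n p q) (h' : Ch 𝒜 k m q r) :
    Ch 𝒜 k (n + m) p r := by
  induction h' with
  | refl _ _ => exact h
  | step m' e _ q1 q2 ψ _ hnv hd hs he ih =>
    rw [← Nat.add_assoc]
    exact Ch.step (n + m') e p q1 q2 ψ (ih h) hnv hd hs he

theorem Ch.single {e : ℕ} {p q : R →ₐ[ℂ] k} {ψ : R →ₐ[ℂ] k[X]} (hp : NV 𝒜 p) (hq : NV 𝒜 q)
    (hd : Deg 𝒜 e ψ) (hs : Starts 𝒜 ψ p) (he : Ends 𝒜 e ψ q) : Ch 𝒜 k e p q := by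
  have h := Ch.step 0 e p p q ψ (Ch.refl p hp) hq hd hs he
  rwa [Nat.zero_add] at h

theorem Ch.symm [GradedAlgebra 𝒜] {n : ℕ} {p q : R →ₐ[ℂ] k} (h : Ch 𝒜 k n p q) :
    Ch 𝒜 k n q p := by
  induction h with
  | refl q hq => exact Ch.refl q hq
  | step n' e p1 q1 q2 ψ hch hnv hd hs he ih =>
    have h1 : Ch 𝒜 k e q2 q1 := Ch.single 𝒜 hnv (Ch.nv_right 𝒜 hch) (rev_deg 𝒜 hd)
      (rev_starts 𝒜 hd he) (rev_ends 𝒜 hd hs)
    rw [Nat.add_comm]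
    exact Ch.trans 𝒜 h1 ih

end chains

section scale

variable {R : Type} [CommRing R] [Algebra ℂ R]
variable {k : Type} [Field k] [Algebra ℂ k]

/-- The substitution `X ↦ ρ X`. -/
noncomputable def scaleX (ρ : k) : k[X] →ₐ[ℂ] k[X] :=
  (aeval (R := k) (C ρ * X)).restrictScalars ℂ

theorem scaleX_coeff (ρ : k) (p : k[X]) (i : ℕ) : (scaleX ρ p).coeff i = ρ ^ i * p.coeff i := by
  have h1 : scaleX ρ p = p.comp (C ρ * X) := by
    change aeval (C ρ * X) p = _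
    rw [aeval_def, comp, algebraMap_eq]
  rw [h1, comp_C_mul_X_coeff, mul_comm]

theorem scaleX_natDegree (ρ : k) (p : k[X]) : (scaleX ρ p).natDegree ≤ p.natDegree := by
  refine natDegree_le_iff_coeff_eq_zero.2 fun i hi => ?_
  rw [scaleX_coeff, coeff_eq_zero_of_natDegree_lt hi, mul_zero]

/-- The curve `ψ` reparametrized by `X ↦ ρ X`. -/
noncomputable def scale (ρ : k) (ψ : R →ₐ[ℂ] k[X]) : R →ₐ[ℂ] k[X] := (scaleX ρ).comp ψ

theorem scale_coeff (ρ : k) (ψ : R →ₐ[ℂ] k[X]) (h : R) (i : ℕ) :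
    (scale ρ ψ h).coeff i = ρ ^ i * (ψ h).coeff i := scaleX_coeff ρ (ψ h) i

theorem scale_deg {𝒜 : ℕ → Submodule ℂ R} {e : ℕ} {ψ : R →ₐ[ℂ] k[X]} (hψ : Deg 𝒜 e ψ) (ρ : k) :
    Deg 𝒜 e (scale ρ ψ) := fun d h hh => (scaleX_natDegree ρ (ψ h)).trans (hψ d h hh)

theorem scale_starts {𝒜 : ℕ → Submodule ℂ R} {ψ : R →ₐ[ℂ] k[X]} {q : R →ₐ[ℂ] k}
    (hψ : Starts 𝒜 ψ q) (ρ : k) : Starts 𝒜 (scale ρ ψ) q := by
  obtain ⟨c, hc, hcq⟩ := hψ
  refine ⟨c, hc, fun d h hh => ?_⟩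
  rw [scale_coeff, pow_zero, one_mul, hcq d h hh]

theorem scale_ends {𝒜 : ℕ → Submodule ℂ R} {e : ℕ} {ψ : R →ₐ[ℂ] k[X]} {q : R →ₐ[ℂ] k}
    (hψ : Ends 𝒜 e ψ q) {ρ : k} (hρ : ρ ≠ 0) : Ends 𝒜 e (scale ρ ψ) q := by
  obtain ⟨c, hc, hcq⟩ := hψ
  refine ⟨ρ ^ e * c, mul_ne_zero (pow_ne_zero e hρ) hc, fun d h hh => ?_⟩
  rw [scale_coeff, hcq d h hh, mul_pow, ← pow_mul, mul_comm e d, mul_assoc]

end scale

section lift

variable {R : Type} [CommRing R] [Algebra ℂ R] (𝒜 : ℕ → Submodule ℂ R)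

/-- A homomorphism into `K` with values in the subring `O` lifts to `O`. -/
theorem exists_lift {O K : Type*} [CommRing O] [CommRing K] [Algebra ℂ O] [Algebra ℂ K]
    (ι : O →ₐ[ℂ] K) (hι : Function.Injective ι) (f : R →ₐ[ℂ] K) (hf : ∀ r, ∃ a, ι a = f r) :
    ∃ g : R →ₐ[ℂ] O, ∀ r, ι (g r) = f r := by
  have hf' : ∀ r, f r ∈ ι.range := fun r => by
    obtain ⟨a, ha⟩ := hf r
    exact ⟨a, ha⟩
  refine ⟨((AlgEquiv.ofInjective ι hι).symm : ι.range →ₐ[ℂ] O).comp (f.codRestrict ι.range hf'),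
    fun r => ?_⟩
  have h1 := AlgEquiv.apply_symm_apply (AlgEquiv.ofInjective ι hι)
    (f.codRestrict ι.range hf' r)
  exact congrArg Subtype.val h1

/-- The same for polynomials. -/
theorem exists_lift_poly {O K : Type*} [CommRing O] [CommRing K] [Algebra ℂ O] [Algebra ℂ K]
    (ι : O →ₐ[ℂ] K) (hι : Function.Injective ι) (f : R →ₐ[ℂ] K[X])
    (hf : ∀ r i, ∃ a, ι a = (f r).coeff i) :
    ∃ g : R →ₐ[ℂ] O[X], ∀ r i, ι ((g r).coeff i) = (f r).coeff i := by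
  have h1 : Function.Injective (mapAlgHom ι) := map_injective (ι : O →+* K) hι
  obtain ⟨g, hg⟩ := exists_lift (mapAlgHom ι) h1 f fun r => by
    have h2 : f r ∈ lifts (ι : O →+* K) := by
      rw [lifts_iff_coeff_lifts]
      intro i
      exact hf r i
    obtain ⟨b, hb⟩ := (mem_lifts _).1 h2
    exact ⟨b, hb⟩
  refine ⟨g, fun r i => ?_⟩
  have h2 := congrArg (fun p => Polynomial.coeff p i) (hg r)
  simp only [coe_mapAlgHom, coeff_map] at h2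
  exact h2

/-- It is enough to look at the elements of degree one. -/
theorem coeff_range_of_gen (hgen : Algebra.adjoin ℂ {h : R | h ∈ 𝒜 1} = ⊤)
    {O K : Type*} [CommRing O] [CommRing K] [Algebra ℂ O] [Algebra ℂ K]
    (ι : O →ₐ[ℂ] K) (f : R →ₐ[ℂ] K[X]) (hf : ∀ h ∈ 𝒜 1, ∀ i, ∃ a, ι a = (f h).coeff i) :
    ∀ r i, ∃ a, ι a = (f r).coeff i := by
  have h1 : (⊤ : Subalgebra ℂ R) ≤ (mapAlgHom ι).range.comap f := by
    rw [← hgen, Algebra.adjoin_le_iff]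
    intro h hh
    have h2 : f h ∈ lifts (ι : O →+* K) := by
      rw [lifts_iff_coeff_lifts]
      intro i
      exact hf h hh i
    obtain ⟨b, hb⟩ := (mem_lifts _).1 h2
    exact ⟨b, hb⟩
  intro r i
  obtain ⟨b, hb⟩ := h1 (Algebra.mem_top : r ∈ (⊤ : Subalgebra ℂ R))
  refine ⟨b.coeff i, ?_⟩
  have h2 := congrArg (fun p => Polynomial.coeff p i) hb
  simp only [AlgHom.toRingHom_eq_coe, RingHom.coe_coe, coe_mapAlgHom, coeff_map] at h2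
  exact h2

/-- Reduction: a homomorphism into `K[X]` with coefficients in `O`, reduced along `O → κ`. -/
theorem exists_reduce {O K κ : Type*} [CommRing O] [CommRing K] [CommRing κ] [Algebra ℂ O]
    [Algebra ℂ K] [Algebra ℂ κ] (ι : O →ₐ[ℂ] K) (hι : Function.Injective ι) (π : O →ₐ[ℂ] κ)
    (f : R →ₐ[ℂ] K[X]) (hf : ∀ r i, ∃ a, ι a = (f r).coeff i) :
    ∃ g : R →ₐ[ℂ] κ[X], ∀ (r : R) (i : ℕ) (a : O), ι a = (f r).coeff i →
      (g r).coeff i = π a := by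
  obtain ⟨g, hg⟩ := exists_lift_poly ι hι f hf
  refine ⟨(mapAlgHom π).comp g, fun r i a ha => ?_⟩
  have h1 : a = (g r).coeff i := hι (by rw [ha, hg r i])
  rw [AlgHom.comp_apply, coe_mapAlgHom, coeff_map, h1]
  rfl

/-- Reduction of a point of the cone along `O → κ`. -/
theorem exists_reduce_pt {O K κ : Type*} [CommRing O] [CommRing K] [CommRing κ] [Algebra ℂ O]
    [Algebra ℂ K] [Algebra ℂ κ] (ι : O →ₐ[ℂ] K) (hι : Function.Injective ι) (π : O →ₐ[ℂ] κ)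
    (f : R →ₐ[ℂ] K) (hf : ∀ r, ∃ a, ι a = f r) :
    ∃ g : R →ₐ[ℂ] κ, ∀ (r : R) (a : O), ι a = f r → g r = π a := by
  obtain ⟨g, hg⟩ := exists_lift ι hι f hf
  refine ⟨π.comp g, fun r a ha => ?_⟩
  have h1 : a = g r := hι (by rw [ha, hg r])
  rw [AlgHom.comp_apply, h1]

end lift

end Vale.Agent.P280.S
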