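import Vale.Agent.P280.H812.Parts
import Vale.Agent.P280.S.H730.Transfer

/-! P280 S, the converse, part A: the vector fields have the weights `-1`, `0`, `1` only. -/

open DirectSum

namespace Vale.Agent.P280.S.H980

section general

variable {ι : Type} [AddMonoid ι] [DecidableEq ι]
variable {R : Type} [CommRing R] [Algebra ℂ R]

/-- The Leibniz rule may be checked on homogeneous elements. -/
theorem leibniz_of_hom (𝒜 : ι → Submodule ℂ R) [GradedAlgebra 𝒜] {B : Type} [CommRing B]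
    [Algebra ℂ B] (p : R →ₐ[ℂ] B) (v : R →ₗ[ℂ] B)
    (h : ∀ i j, ∀ a ∈ 𝒜 i, ∀ b ∈ 𝒜 j, v (a * b) = p a * v b + p b * v a) (a b : R) :
    v (a * b) = p a * v b + p b * v a := by
  let F1 : R →ₗ[ℂ] R →ₗ[ℂ] B := (LinearMap.mul ℂ R).compr₂ v
  let G : R →ₗ[ℂ] R →ₗ[ℂ] B :=
    (LinearMap.mul ℂ B).compl₁₂ p.toLinearMap v +
      ((LinearMap.mul ℂ B).compl₁₂ p.toLinearMap v).flip
  have hFG : F1 a b = G a b := by
    refine H587.bilin_ext 𝒜 (F := F1) (G := G) ?_ a b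
    intro i j x hx y hy
    change v (x * y) = p x * v y + p y * v x
    exact h i j x hx y hy
  exact hFG

end general

variable {R : Type} [CommRing R] [Algebra ℂ R] {ℬ : ℕ × ℤ → Submodule ℂ R}

/-- All tangent weights at all fixed points are at most one in absolute value. -/
def SmallWeights (ℬ : ℕ × ℤ → Submodule ℂ R) : Prop :=
  ∀ (q : R →ₐ[ℂ] ℂ) (ν : ℤ), ¬ T.IsVertex ℬ q → T.IsFixed ℬ q ν →
    ∀ χ, T.TangentWeight ℬ q ν χ → -1 ≤ χ ∧ χ ≤ 1

/-- The isolated source with all weights one. -/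
theorem isSource_one {x : R →ₐ[ℂ] ℂ} (hx0 : ¬ T.IsVertex ℬ x) {μ : ℤ} (hx : T.IsFixed ℬ x μ)
    (hw : ∀ χ, T.TangentWeight ℬ x μ χ → χ = 1) :
    T.IsSource ℬ (AddMonoidHom.id ℤ) x μ 1 := by
  refine ⟨hx0, hx, fun χ hχ => ?_⟩
  rw [hw χ hχ]
  exact ⟨one_pos, le_rfl⟩

variable [GradedAlgebra ℬ]

theorem smallWeights (hX : T.IsTorusManifold ℬ) (hN : T.NefOnRationalCurves ℬ)
    {x : R →ₐ[ℂ] ℂ} (hx0 : ¬ T.IsVertex ℬ x) {μ : ℤ} (hx : T.IsFixed ℬ x μ)
    (hw : ∀ χ, T.TangentWeight ℬ x μ χ → χ = 1) : SmallWeights ℬ := fun _ _ hq0 hq χ hχ =>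
  (H812.theoremI_full hX hN one_pos (isSource_one hx0 hx hw) hq0 hq).1 χ hχ

/-- Fields of weight at least two in absolute value vanish. -/
theorem field_eq_zero (hX : T.IsTorusManifold ℬ) (hw : SmallWeights ℬ) {ε : ℤ} (hε : ε * ε = 1)
    {k : ℤ} (hk : 2 ≤ ε * k) (D : Derivation ℂ R R)
    (hD : ∀ (d : ℕ) (m : ℤ), ∀ h ∈ ℬ (d, m), D h ∈ ℬ (d, m - k)) (d₀ : ℕ) (m₀ : ℤ) (h₀ : R)
    (hh₀ : h₀ ∈ ℬ (d₀, m₀)) : D h₀ = 0 := by
  have hdom := hX.domain
  have hft := hX.finiteType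
  by_contra hne0
  -- a point `z` where `D h₀` does not vanish
  obtain ⟨p₀, hp₀⟩ := hX.nonempty
  obtain ⟨m₁, g, hg, hpg⟩ := (T.not_isVertex_iff hX.gen p₀).1 hp₀
  have hg0 : g ≠ 0 := fun h => hpg (by rw [h, map_zero])
  have h1 : g * D h₀ ∉ (⊥ : Ideal R).radical := by
    rw [(Ideal.isPrime_bot (α := R)).radical, Ideal.mem_bot]
    exact mul_ne_zero hg0 hne0
  obtain ⟨z, -, hz⟩ := T.exists_point h1
  rw [map_mul] at hz
  have hzg : z g ≠ 0 := left_ne_zero_of_mul hz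
  have hzD : z (D h₀) ≠ 0 := right_ne_zero_of_mul hz
  -- the bottom level
  obtain ⟨m₂, ⟨h₂, hh₂, hz₂⟩, hmin⟩ := Set.Finite.exists_minimalFor (fun m : ℤ => ε * m)
    {m : ℤ | ∃ h ∈ ℬ (1, m), z h ≠ 0}
    ((T.finite_weights hX).subset fun m ⟨h, hh, hne⟩ => ⟨h, hh, fun h0 => hne (by
      rw [h0, map_zero])⟩) ⟨m₁, g, hg, hzg⟩
  set γ : ℤ := ε * m₂ with hγ
  have hmin' : ∀ m, ∀ h ∈ ℬ (1, m), h ∉ RingHom.ker z → γ ≤ (AddMonoidHom.mulLeft ε) m := by
    intro m h hh hne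
    rcases le_total γ (ε * m) with hle | hle
    · exact hle
    · exact hmin ⟨h, hh, fun h0 => hne h0⟩ hle
  have hslope := T.slope_le hX.gen (AddMonoidHom.mulLeft ε) γ (RingHom.ker z) hmin'
  have hslope' : ∀ (d : ℕ) (m : ℤ), ∀ h ∈ ℬ (d, m), z h ≠ 0 → (d : ℤ) * γ ≤ ε * m := by
    intro d m h hh hne
    have h2 := hslope d m h hh (fun h0 => hne h0)
    rw [nsmul_eq_mul] at h2
    exact h2
  obtain ⟨y, hy1, hy2⟩ := T.exists_limit ℬ z (T.slopeHom (AddMonoidHom.mulLeft ε) γ) (by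
    rintro ⟨d, m⟩ h hh hne
    rw [T.slopeHom_apply, sub_nonneg]
    exact hslope d m h hh (fun h0 => hne h0))
  have hs : ∀ (d : ℕ) (m : ℤ), T.slopeHom (AddMonoidHom.mulLeft ε) γ (d, m) =
      ε * m - (d : ℤ) * γ := by
    intro d m
    rw [T.slopeHom_apply, nsmul_eq_mul]
    rfl
  have hy1' : ∀ (d : ℕ) (m : ℤ), ∀ h ∈ ℬ (d, m), ε * m = (d : ℤ) * γ → y h = z h :=
    fun d m h hh he => hy1 (d, m) h hh (by rw [hs, he, sub_self])
  have hy2' : ∀ (d : ℕ) (m : ℤ), ∀ h ∈ ℬ (d, m), ε * m ≠ (d : ℤ) * γ → y h = 0 :=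
    fun d m h hh he => hy2 (d, m) h hh (by rw [hs]; exact sub_ne_zero.2 he)
  have hy0 : ¬ T.IsVertex ℬ y := by
    rw [T.not_isVertex_iff hX.gen]
    refine ⟨m₂, h₂, hh₂, ?_⟩
    rw [hy1' 1 m₂ h₂ hh₂ (by push_cast; rw [one_mul])]
    exact hz₂
  have hεm : ∀ m : ℤ, ε * (ε * m) = m := fun m => by rw [← mul_assoc, hε, one_mul]
  have hyf : T.IsFixed ℬ y m₂ := by
    intro d m h hh hne
    by_contra hm
    refine hne (hy2' d m h hh fun he => hm ?_)
    rw [nsmul_eq_mul, ← hεm m, he, hγ, mul_left_comm, ← mul_assoc ε, hε, one_mul]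
  -- the order of vanishing
  let K : Set ℕ := {n | ∃ (d : ℕ) (m : ℤ), ∃ h ∈ ℬ (d, m), z (D h) ≠ 0 ∧
    ε * (m - k) - (d : ℤ) * γ = n}
  have hK : K.Nonempty := by
    have h3 := hslope' d₀ (m₀ - k) (D h₀) (hD d₀ m₀ h₀ hh₀) hzD
    obtain ⟨n, hn⟩ := Int.eq_ofNat_of_zero_le (sub_nonneg.2 h3)
    exact ⟨n, d₀, m₀, h₀, hh₀, hzD, hn⟩
  set κ : ℕ := sInf K with hκ
  have hκK : κ ∈ K := Nat.sInf_mem hK
  have hκle : ∀ (d : ℕ) (m : ℤ), ∀ h ∈ ℬ (d, m), z (D h) ≠ 0 →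
      (κ : ℤ) ≤ ε * (m - k) - (d : ℤ) * γ := by
    intro d m h hh hne
    have h3 := hslope' d (m - k) (D h) (hD d m h hh) hne
    obtain ⟨n, hn⟩ := Int.eq_ofNat_of_zero_le (sub_nonneg.2 h3)
    have h4 : κ ≤ n := Nat.sInf_le ⟨d, m, h, hh, hne, hn⟩
    rw [hn]
    exact_mod_cast h4
  obtain ⟨v, hv⟩ := H587.exists_linearMap ℬ (fun i : ℕ × ℤ =>
    if ε * (i.2 - k) - (i.1 : ℤ) * γ = κ then z.toLinearMap.comp D.toLinearMap else 0)
  have hv1 : ∀ (d : ℕ) (m : ℤ), ∀ h ∈ ℬ (d, m), ε * (m - k) - (d : ℤ) * γ = κ →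
      v h = z (D h) := by
    intro d m h hh he
    rw [hv (d, m) h hh]
    simp only [he, if_true]
    rfl
  have hv2 : ∀ (d : ℕ) (m : ℤ), ∀ h ∈ ℬ (d, m), ε * (m - k) - (d : ℤ) * γ ≠ κ → v h = 0 := by
    intro d m h hh he
    rw [hv (d, m) h hh]
    simp only [he, if_false]
    rfl
  have hvt : T.IsTangent y v := by
    refine leibniz_of_hom ℬ y v ?_
    rintro ⟨d, m⟩ ⟨d', m'⟩ a ha b hb
    have hab : a * b ∈ ℬ (d + d', m + m') := SetLike.mul_mem_graded ha hb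
    -- one of the two terms
    have key : ∀ (d d' : ℕ) (m m' : ℤ), ∀ a ∈ ℬ (d, m), ∀ b ∈ ℬ (d', m'),
        (if ε * (m + m' - k) - ((d + d' : ℕ) : ℤ) * γ = κ then z a * z (D b) else 0) =
          y a * v b := by
      intro d d' m m' a ha b hb
      have e0 : ε * (m + m' - k) - ((d + d' : ℕ) : ℤ) * γ =
          (ε * m - (d : ℤ) * γ) + (ε * (m' - k) - (d' : ℤ) * γ) := by
        push_cast
        ring
      by_cases h5 : ε * m = (d : ℤ) * γ
      · rw [hy1' d m a ha h5]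
        have e1 : ε * (m + m' - k) - ((d + d' : ℕ) : ℤ) * γ =
            ε * (m' - k) - (d' : ℤ) * γ := by
          rw [e0, h5, sub_self, zero_add]
        rw [e1]
        by_cases h6 : ε * (m' - k) - (d' : ℤ) * γ = κ
        · rw [if_pos h6, hv1 d' m' b hb h6]
        · rw [if_neg h6, hv2 d' m' b hb h6, mul_zero]
      · rw [hy2' d m a ha h5, zero_mul]
        split_ifs with h6
        · by_contra hne
          have h7 := hslope' d m a ha (left_ne_zero_of_mul hne)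
          have h8 := hκle d' m' b hb (right_ne_zero_of_mul hne)
          apply h5
          omega
        · rfl
    have k1 := key d d' m m' a ha b hb
    have k2 := key d' d m' m b hb a ha
    rw [add_comm m' m, add_comm d' d] at k2
    rw [← k1, ← k2]
    by_cases h5 : ε * (m + m' - k) - ((d + d' : ℕ) : ℤ) * γ = κ
    · rw [if_pos h5, if_pos h5, hv1 _ _ _ hab h5, D.leibniz, smul_eq_mul, smul_eq_mul, map_add,
        map_mul, map_mul]
    · rw [if_neg h5, if_neg h5, hv2 _ _ _ hab h5, add_zero]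
  -- its weight
  set χ : ℤ := ε * κ + k with hχ
  have hvw : T.HasWeight ℬ m₂ χ v := by
    intro d m h hh hne
    by_contra hm
    refine hne (hv2 d m h hh fun he => hm ?_)
    have e1 : ε * (ε * (m - k) - (d : ℤ) * γ) = ε * κ := by rw [he]
    rw [mul_sub, hεm, hγ, mul_left_comm, hεm] at e1
    rw [nsmul_eq_mul]
    linarith
  have hχ2 : 2 ≤ ε * χ := by
    rw [hχ, mul_add, hεm]
    omega
  have hvne : v ≠ 0 := by
    intro h0
    obtain ⟨d, m, h, hh, hne, he⟩ := hκK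
    apply hne
    rw [← hv1 d m h hh he, h0, LinearMap.zero_apply]
  have hχ0 : χ ≠ 0 := by
    intro h0
    rw [h0, mul_zero] at hχ2
    omega
  obtain ⟨b1, b2⟩ := hw y m₂ hy0 hyf χ (T.tangentWeight_of_ne hyf hχ0 hvt hvw hvne)
  have hε' : ε = 1 ∨ ε = -1 := by
    have h3 : (ε - 1) * (ε + 1) = 0 := by linear_combination hε
    rcases mul_eq_zero.1 h3 with h4 | h4
    · left; omega
    · right; omega
  rcases hε' with h3 | h3
  · rw [h3] at hχ2
    omega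
  · rw [h3] at hχ2
    omega

/-- The components of a field are fields, and vanish unless their weight is `-1`, `0` or `1`. -/
theorem decompose_field_eq_zero (hX : T.IsTorusManifold ℬ) (hw : SmallWeights ℬ)
    (D : Derivation ℂ R R) (d : ℕ) (m m' : ℤ) (h : R) (hh : h ∈ ℬ (d, m))
    (hm : m' < m - 1 ∨ m + 1 < m') : (decompose ℬ (D h) (d, m') : R) = 0 := by
  obtain ⟨D', h1, h2⟩ := H587.exists_field_component (𝒜 := ℬ) D (m - m')
  have h3 := h2 d m h hh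
  have e : m - (m - m') = m' := by ring
  rw [e] at h3
  rw [← h3]
  rcases hm with hm | hm
  · exact field_eq_zero hX hw (ε := 1) (by norm_num) (k := m - m') (by omega) D' h1 d m h hh
  · exact field_eq_zero hX hw (ε := -1) (by norm_num) (k := m - m') (by omega) D' h1 d m h hh

end Vale.Agent.P280.S.H980
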