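import Vale.Agent.P280.S.H980.ConvA

/-! P280 S, the converse, part B: orders of contact of the curves with the levels. -/

open DirectSum Polynomial

namespace Vale.Agent.P280.S.H980

variable {R : Type} [CommRing R] [Algebra ℂ R]

/-- `δ` is a derivation along `ψ`. -/
def IsDer (ψ : R →ₐ[ℂ] ℂ[X]) (δ : R →ₗ[ℂ] ℂ[X]) : Prop :=
  ∀ a b : R, δ (a * b) = ψ a * δ b + ψ b * δ a

/-- The value of `ψ` at `0`. -/
noncomputable def at0 (ψ : R →ₐ[ℂ] ℂ[X]) : R →ₐ[ℂ] ℂ := (aeval (0 : ℂ)).comp ψ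

theorem at0_apply (ψ : R →ₐ[ℂ] ℂ[X]) (h : R) : at0 ψ h = (ψ h).coeff 0 := by
  rw [at0, AlgHom.comp_apply, coe_aeval_eq_eval, coeff_zero_eq_eval_zero]

/-- The derivative of `ψ`. -/
noncomputable def der (ψ : R →ₐ[ℂ] ℂ[X]) : R →ₗ[ℂ] ℂ[X] :=
  (Polynomial.derivative (R := ℂ)).comp ψ.toLinearMap

theorem isDer_der (ψ : R →ₐ[ℂ] ℂ[X]) : IsDer ψ (der ψ) := by
  intro a b
  change derivative (ψ (a * b)) = ψ a * derivative (ψ b) + ψ b * derivative (ψ a)
  rw [map_mul, derivative_mul]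
  ring

theorem pow_dvd_of_derivative {p : ℂ[X]} {c : ℕ} (h0 : p.coeff 0 = 0)
    (h : X ^ c ∣ derivative p) : X ^ (c + 1) ∣ p := by
  rw [X_pow_dvd_iff] at h ⊢
  intro i hi
  rcases i with _ | i
  · exact h0
  · have h1 := h i (by omega)
    rw [coeff_derivative] at h1
    rcases mul_eq_zero.1 h1 with h2 | h2
    · exact h2
    · exfalso
      have h3 : ((i + 1 : ℕ) : ℂ) ≠ 0 := Nat.cast_ne_zero.2 (Nat.succ_ne_zero i)
      apply h3
      push_cast
      exact h2

variable {ℬ : ℕ × ℤ → Submodule ℂ R} [GradedAlgebra ℬ]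

/-- A derivation along a curve is a vector field up to a multiple of the parameter. -/
theorem exists_step (hH : T.IsHomogeneousManifold ℬ) {ψ : R →ₐ[ℂ] ℂ[X]}
    (hp : ¬ T.IsVertex ℬ (at0 ψ)) {δ : R →ₗ[ℂ] ℂ[X]} (hδ : IsDer ψ δ) :
    ∃ D : Derivation ℂ R R, T.IsField ℬ D ∧ ∃ δ₁ : R →ₗ[ℂ] ℂ[X], IsDer ψ δ₁ ∧
      ∀ h, δ h = ψ (D h) + X * δ₁ h := by
  let v : R →ₗ[ℂ] ℂ := (aeval (0 : ℂ)).toLinearMap.comp δ
  have hva : ∀ h, v h = (δ h).coeff 0 := fun h => by
    change aeval (0 : ℂ) (δ h) = _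
    rw [coe_aeval_eq_eval, coeff_zero_eq_eval_zero]
  have hv : T.IsTangent (at0 ψ) v := by
    intro a b
    rw [hva, hδ, coeff_add, mul_coeff_zero, mul_coeff_zero, ← at0_apply, ← at0_apply, ← hva,
      ← hva]
  obtain ⟨D, hD, hDv⟩ := hH _ hp v hv
  have hex : ∀ h, ∃ u, δ h - ψ (D h) = X * u := by
    intro h
    have h1 : X ∣ δ h - ψ (D h) := by
      rw [X_dvd_iff, coeff_sub, ← hva, ← hDv, at0_apply, sub_self]
    exact h1
  choose F hF using hex
  have hc : ∀ {a b : ℂ[X]}, X * a = X * b → a = b := fun h => mul_left_cancel₀ X_ne_zero h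
  refine ⟨D, hD, ⟨⟨F, fun a b => hc ?_⟩, fun c a => hc ?_⟩, fun a b => hc ?_, fun h => ?_⟩
  · rw [← hF, mul_add, ← hF, ← hF, map_add, map_add, map_add]
    ring
  · rw [← hF, map_smul, D.map_smul, map_smul, RingHom.id_apply, mul_smul_comm, ← hF, smul_sub]
  · change X * F (a * b) = X * (ψ a * F b + ψ b * F a)
    rw [← hF, hδ, D.leibniz, smul_eq_mul, smul_eq_mul, map_add, map_mul, map_mul]
    linear_combination ψ a * hF b + ψ b * hF a
  · change δ h = ψ (D h) + X * F h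
    rw [← hF]
    ring

theorem dvd_of_components {ψ : R →ₐ[ℂ] ℂ[X]} {u : ℂ[X]} {r : R}
    (h : ∀ i, u ∣ ψ (decompose ℬ r i : R)) : u ∣ ψ r := by
  classical
  rw [← DirectSum.sum_support_decompose ℬ r, map_sum]
  exact Finset.dvd_sum fun i _ => h i

theorem decompose_field_deg {D : Derivation ℂ R R} (hD : T.IsField ℬ D) {d d' : ℕ} {m m' : ℤ}
    {h : R} (hh : h ∈ ℬ (d, m)) (hd : d' ≠ d) : (decompose ℬ (D h) (d', m') : R) = 0 := by
  have h1 := hD d m h hh
  have h2 : (⨆ m' : ℤ, ℬ (d, m')) ≤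
      LinearMap.ker (GradedAlgebra.proj ℬ (d', m')) := by
    refine iSup_le fun k x hx => ?_
    rw [LinearMap.mem_ker]
    exact decompose_of_mem_ne ℬ hx (fun he => hd (congrArg Prod.fst he).symm)
  exact LinearMap.mem_ker.1 (h2 h1)

/-- If all levels above `γ` vanish at `ψ(0)`, then the level `γ + N` vanishes to order `N`. -/
theorem contact (hX : T.IsTorusManifold ℬ) (hw : SmallWeights ℬ)
    (hH : T.IsHomogeneousManifold ℬ) {ε : ℤ} (hε : ε * ε = 1) {γ : ℤ} (ψ : R →ₐ[ℂ] ℂ[X])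
    (hp : ¬ T.IsVertex ℬ (at0 ψ))
    (hlow : ∀ m : ℤ, ∀ h ∈ ℬ (1, m), γ < ε * m → (ψ h).coeff 0 = 0) (N : ℕ) :
    ∀ (d : ℕ) (m : ℤ), ∀ h ∈ ℬ (d, m), (N : ℤ) ≤ ε * m - d * γ → X ^ N ∣ ψ h := by
  have hslope := T.slope_le hX.gen (AddMonoidHom.mulLeft (-ε)) (-γ) (RingHom.ker (at0 ψ)) (by
    intro m h hh hne
    by_contra hlt
    apply hne
    rw [RingHom.mem_ker, at0_apply]
    refine hlow m h hh ?_
    change ¬ (-γ ≤ -ε * m) at hlt
    rw [neg_mul] at hlt
    omega)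
  have hlow' : ∀ (d : ℕ) (m : ℤ), ∀ h ∈ ℬ (d, m), (0 : ℤ) < ε * m - d * γ →
      (ψ h).coeff 0 = 0 := by
    intro d m h hh hlt
    by_contra hne
    have h1 := hslope d m h hh (fun h0 => hne (by rw [← at0_apply]; exact h0))
    rw [nsmul_eq_mul] at h1
    change (d : ℤ) * -γ ≤ -ε * m at h1
    rw [neg_mul, mul_neg] at h1
    omega
  have hε' : ε = 1 ∨ ε = -1 := by
    have h3 : (ε - 1) * (ε + 1) = 0 := by linear_combination hε
    rcases mul_eq_zero.1 h3 with h4 | h4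
    · left; omega
    · right; omega
  induction N with
  | zero =>
    intro d m h _ _
    rw [pow_zero]
    exact one_dvd _
  | succ c ih =>
    have key : ∀ N : ℕ, N ≤ c → ∀ δ : R →ₗ[ℂ] ℂ[X], IsDer ψ δ → ∀ (d : ℕ) (m : ℤ),
        ∀ h ∈ ℬ (d, m), ((c + 1 : ℕ) : ℤ) ≤ ε * m - d * γ → X ^ N ∣ δ h := by
      intro N
      induction N with
      | zero =>
        intro _ δ _ d m h _ _
        rw [pow_zero]
        exact one_dvd _
      | succ N ihN =>
        intro hN δ hδ d m h hh hle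
        obtain ⟨D, hD, δ₁, hδ₁, he⟩ := exists_step hH hp hδ
        rw [he h]
        refine dvd_add ?_ ?_
        · refine (pow_dvd_pow X hN).trans (dvd_of_components (ℬ := ℬ) fun i => ?_)
          obtain ⟨d', m'⟩ := i
          by_cases hd : d' = d
          · subst hd
            by_cases hm : m' < m - 1 ∨ m + 1 < m'
            · rw [decompose_field_eq_zero hX hw D d' m m' h hh hm, map_zero]
              exact dvd_zero _
            · refine ih d' m' _ (SetLike.coe_mem _) ?_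
              push_cast at hle
              rcases hε' with h3 | h3
              · rw [h3] at hle ⊢
                omega
              · rw [h3] at hle ⊢
                omega
          · rw [decompose_field_deg hD hh hd, map_zero]
            exact dvd_zero _
        · rw [pow_succ']
          exact mul_dvd_mul_left X (ihN (by omega) δ₁ hδ₁ d m h hh hle)
    intro d m h hh hle
    refine pow_dvd_of_derivative (hlow' d m h hh ?_) ?_
    · push_cast at hle
      omega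
    · exact key c le_rfl (der ψ) (isDer_der ψ) d m h hh hle

end Vale.Agent.P280.S.H980
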