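import Vale.Agent.P280.S.H980.ConvB
import Vale.Agent.P280.S.H847.Conv
import Vale.Agent.P280.S.H980.Tools

/-! P280 S, the converse, part C: an isolated source with all weights one is joined to the sink by
exactly one curve of minimal degree through a general point. -/

open DirectSum Polynomial

namespace Vale.Agent.P280.S.H980

section dehom

variable {R : Type} [CommRing R] [Algebra ℂ R] {𝒜 : ℕ → Submodule ℂ R}

/-- Dehomogenization of a curve. -/
noncomputable def dh (φ : R →ₐ[ℂ] MvPolynomial (Fin 2) ℂ) : R →ₐ[ℂ] ℂ[X] :=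
  (MvPolynomial.aeval ![(X : ℂ[X]), 1]).comp φ

variable {e : ℕ} {φ : R →ₐ[ℂ] MvPolynomial (Fin 2) ℂ}

theorem dh_deg (hφ : IsCurve 𝒜 e φ) : Deg 𝒜 e (dh φ) := fun d h hh =>
  natDegree_dehom (hφ.1 d h hh)

theorem dh_hgz (hφ : IsCurve 𝒜 e φ) {d : ℕ} {h : R} (hh : h ∈ 𝒜 d) :
    φ h = (dh φ h).homogenize (d * e) :=
  (homogenize_eq_of_isHomogeneous (hφ.1 d h hh) rfl).symm

theorem dh_fin (hφ : IsCurve 𝒜 e φ) (c : ℂ) {d : ℕ} {h : R} (hh : h ∈ 𝒜 d) :
    pt φ ![c, 1] h = (dh φ h).eval c := by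
  rw [pt, AlgHom.comp_apply]
  conv_lhs => rw [dh_hgz hφ hh]
  rw [aeval_homogenize_fin _ (dh_deg hφ d h hh) _ (by simp)]
  simp

theorem dh_zero (hφ : IsCurve 𝒜 e φ) {d : ℕ} {h : R} (hh : h ∈ 𝒜 d) :
    (dh φ h).coeff 0 = pt φ ![0, 1] h := by
  rw [dh_fin hφ 0 hh, coeff_zero_eq_eval_zero]

theorem dh_infty (hφ : IsCurve 𝒜 e φ) {d : ℕ} {h : R} (hh : h ∈ 𝒜 d) :
    (dh φ h).coeff (d * e) = pt φ ![1, 0] h := by
  rw [pt, AlgHom.comp_apply]
  conv_rhs => rw [dh_hgz hφ hh]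
  rw [aeval_homogenize_infty _ _ _ (by simp)]
  simp

end dehom

variable {R : Type} [CommRing R] [Algebra ℂ R] {𝒜 : ℕ → Submodule ℂ R}
  {ℬ : ℕ × ℤ → Submodule ℂ R} [GradedAlgebra ℬ]

theorem vec_ne {a b : ℂ} (h : a ≠ 0 ∨ b ≠ 0) : (![a, b] : Fin 2 → ℂ) ≠ 0 := by
  intro h0
  rcases h with h | h
  · exact h (by simpa using congrFun h0 0)
  · exact h (by simpa using congrFun h0 1)

/-- The points joined to the source by chains of degree `n` are in the closed set where the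
levels above `n` vanish. -/
theorem vanish_of_joined (hr : Refines 𝒜 ℬ) (hX : T.IsTorusManifold ℬ) (hw : SmallWeights ℬ)
    (hH : T.IsHomogeneousManifold ℬ) {n : ℕ} {p q : R →ₐ[ℂ] ℂ} (h : IsJoined 𝒜 n p q)
    (hp : ∀ m : ℤ, 0 < m → ∀ h ∈ ℬ (1, m), p h = 0) :
    ∀ m : ℤ, (n : ℤ) < m → ∀ h ∈ ℬ (1, m), q h = 0 := by
  induction h with
  | refl p q hpq =>
    intro m hm h hh
    obtain ⟨c, -, hc⟩ := hpq
    rw [hc 1 h (hr.le 1 m hh), hp m (by simpa using hm) h hh, mul_zero]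
  | step n e p q φ hφ _ hs ih =>
    intro m hm h hh
    have ih' := ih hp
    obtain ⟨c, -, hc⟩ := hs
    have hz : ∀ (m : ℤ), ∀ h ∈ ℬ (1, m), (dh φ h).coeff 0 = pt φ ![0, 1] h :=
      fun m h hh => dh_zero hφ (hr.le 1 m hh)
    have hv : ¬ T.IsVertex ℬ (at0 (dh φ)) := by
      obtain ⟨m', h', hh', hne⟩ := (T.not_isVertex_iff hX.gen (pt φ ![0, 1])).1
        (fun hv => hφ.2 _ (vec_ne (Or.inr one_ne_zero)) (hr.isVertex.1 hv))
      rw [T.not_isVertex_iff hX.gen]
      refine ⟨m', h', hh', ?_⟩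
      rw [at0_apply, hz m' h' hh']
      exact hne
    have h1 := contact hX hw hH (ε := 1) (by norm_num) (γ := n) (dh φ) hv (by
      intro m' h' hh' hlt
      rw [hz m' h' hh']
      exact ih' m' (by omega) h' hh') (e + 1) 1 m h hh (by
        push_cast at hm ⊢
        omega)
    rw [X_pow_dvd_iff] at h1
    rw [hc 1 h (hr.le 1 m hh), ← dh_infty hφ (hr.le 1 m hh), h1 _ (by omega), mul_zero]

theorem eqOn_of_refines (hr : Refines 𝒜 ℬ) {B : Type} [AddCommGroup B] [Module ℂ B] {d : ℕ}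
    (f g : R →ₗ[ℂ] B) (h : ∀ m : ℤ, ∀ a ∈ ℬ (d, m), f a = g a) : ∀ a ∈ 𝒜 d, f a = g a := by
  intro a ha
  have h1 : 𝒜 d ≤ LinearMap.ker (f - g) := hr.sub fun m b hb => by
    rw [LinearMap.mem_ker, LinearMap.sub_apply, h m b hb, sub_self]
  have h2 := LinearMap.mem_ker.1 (h1 ha)
  rwa [LinearMap.sub_apply, sub_eq_zero] at h2

variable [GradedAlgebra 𝒜]

/-- An isolated source with all weights one satisfies the hypotheses of Theorem S. -/
theorem exists_isGood (hr : Refines 𝒜 ℬ) (hX : IsProjectiveManifold 𝒜)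
    (hN : NefOnRationalCurves 𝒜) (hH : T.IsHomogeneousManifold ℬ) {x : R →ₐ[ℂ] ℂ}
    (hx0 : ¬ T.IsVertex ℬ x) (hx : T.IsFixed ℬ x 0)
    (hw1 : ∀ χ, T.TangentWeight ℬ x 0 χ → χ = 1) :
    ∃ (J : Set R) (e : ℕ), IsGood 𝒜 x J e := by
  have hX' := hr.isTorusManifold hX
  have hN' := hr.nef hN
  have hw := smallWeights hX' hN' hx0 hx hw1
  have hdom := hX.domain
  have hsrc := isSource_one hx0 hx hw1
  obtain ⟨f, hf, hxf⟩ := H939.source_s1 hX' hsrc
  obtain ⟨hlow, hspan⟩ := H939.source_s2 hX' hsrc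
  have hspan' : ∀ (d : ℕ), ∀ h ∈ ℬ (d, 0), ∃ c : ℂ, h = c • f ^ d := by
    intro d h hh
    refine hspan f hf (by rw [hxf]; exact one_ne_zero) d h ?_
    rw [smul_zero]
    exact hh
  have hf0 : f ≠ 0 := fun h => one_ne_zero (α := ℂ) (by rw [← hxf, h, map_zero])
  -- the largest weight
  obtain ⟨M, ⟨t, ht, ht0⟩, hmax⟩ := Set.Finite.exists_maximal (T.finite_weights hX')
    ⟨0, f, hf, hf0⟩
  have hmax' : ∀ m, ∀ h ∈ ℬ (1, m), h ≠ 0 → m ≤ M := fun m h hh hne => by
    rcases le_total m M with h1 | h1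
    · exact h1
    · exact hmax ⟨h, hh, hne⟩ h1
  have hM0 : 0 ≤ M := hmax' 0 f hf hf0
  obtain ⟨e, rfl⟩ := Int.eq_ofNat_of_zero_le hM0
  have hslope := T.slope_le hX'.gen (AddMonoidHom.mulLeft (-1 : ℤ)) (-(e : ℤ)) (⊥ : Ideal R) (by
    intro m h hh hne
    have h1 := hmax' m h hh (fun h0 => hne (by rw [h0]; exact Ideal.zero_mem _))
    change -(e : ℤ) ≤ -1 * m
    omega)
  have hbd : ∀ (d : ℕ) (m : ℤ), ∀ h ∈ ℬ (d, m), h ≠ 0 → 0 ≤ m ∧ m ≤ ((d * e : ℕ) : ℤ) := by
    intro d m h hh hne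
    have h1 := hlow d m h hh hne
    have h2 := hslope d m h hh (fun h0 => hne ((Ideal.mem_bot).1 h0))
    rw [nsmul_eq_mul] at h2
    change (d : ℤ) * -(e : ℤ) ≤ -1 * m at h2
    rw [smul_zero] at h1
    refine ⟨h1, ?_⟩
    push_cast
    linarith
  have hxpos : ∀ (d : ℕ) (m : ℤ), 0 < m → ∀ h ∈ ℬ (d, m), x h = 0 := by
    intro d m hm h hh
    by_contra hne
    have h1 := hx d m h hh hne
    rw [smul_zero] at h1
    omega
  let J : Set R := {h | ∃ m : ℤ, m < e ∧ h ∈ ℬ (1, m)}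
  refine ⟨J, e, fun h => hx0 (hr.isVertex.2 h), ?_, ?_, ?_⟩
  · rintro h ⟨m, -, hh⟩
    exact ⟨1, hr.le 1 m hh⟩
  · intro n y hy hJ hch
    have h1 := vanish_of_joined hr hX' hw hH hch (fun m hm h hh => hxpos 1 m hm h hh)
    by_contra hlt
    have hlt' : n < e := by omega
    obtain ⟨m, h, hh, hne⟩ := (T.not_isVertex_iff hX'.gen y).1 (fun hv => hy (hr.isVertex.1 hv))
    rcases lt_or_ge m (e : ℤ) with h2 | h2
    · exact hne (hJ h ⟨m, h2, hh⟩)
    · exact hne (h1 m (by omega) h hh)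
  · refine ⟨2, two_pos, f * t, ?_, mul_ne_zero hf0 ht0, ?_⟩
    · have h1 : f * t ∈ 𝒜 (1 + 1) := SetLike.mul_mem_graded (hr.le 1 0 hf) (hr.le 1 _ ht)
      exact h1
    intro z hz
    rw [map_mul] at hz
    have hzf : z f ≠ 0 := left_ne_zero_of_mul hz
    have hzt : z t ≠ 0 := right_ne_zero_of_mul hz
    -- the orbit of `z`
    obtain ⟨ψ, hψ⟩ := T.exists_algHom ℬ (fun i : ℕ × ℤ =>
      (LinearMap.mulRight ℂ ((X : ℂ[X]) ^ i.2.toNat)).comp
        ((Algebra.linearMap ℂ ℂ[X]).comp z.toLinearMap)) (by simp) (by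
        rintro ⟨d, m⟩ ⟨d', m'⟩ a ha b hb
        change algebraMap ℂ ℂ[X] (z (a * b)) * X ^ (m + m').toNat =
          (algebraMap ℂ ℂ[X] (z a) * X ^ m.toNat) * (algebraMap ℂ ℂ[X] (z b) * X ^ m'.toNat)
        by_cases ha0 : a = 0
        · rw [ha0]; simp
        by_cases hb0 : b = 0
        · rw [hb0]; simp
        rw [Int.toNat_add (hbd d m a ha ha0).1 (hbd d' m' b hb hb0).1, map_mul, map_mul, pow_add]
        ring)
    have hψ' : ∀ (d : ℕ) (m : ℤ), ∀ h ∈ ℬ (d, m), ψ h = C (z h) * X ^ m.toNat :=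
      fun d m h hh => hψ (d, m) h hh
    have hdeg : Deg 𝒜 e ψ := by
      intro d h hh
      have h1 : 𝒜 d ≤ (Polynomial.degreeLE ℂ ((d * e : ℕ) : WithBot ℕ)).comap ψ.toLinearMap := by
        refine hr.sub fun m a ha => ?_
        rw [Submodule.mem_comap, AlgHom.toLinearMap_apply, mem_degreeLE, hψ' d m a ha]
        by_cases ha0 : a = 0
        · rw [ha0, map_zero, map_zero, zero_mul, degree_zero]
          exact bot_le
        · refine (degree_C_mul_X_pow_le _ _).trans ?_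
          have h2 := hbd d m a ha ha0
          have h3 : m.toNat ≤ d * e := by omega
          exact_mod_cast h3
      have h2 := h1 hh
      rw [Submodule.mem_comap, AlgHom.toLinearMap_apply, mem_degreeLE] at h2
      exact natDegree_le_iff_degree_le.2 h2
    have hcurve : IsCurve 𝒜 e (hgz hdeg) := by
      refine isCurve_hgz hX.gen hdeg (fun c => ⟨f, hr.le 1 0 hf, ?_⟩) ⟨t, hr.le 1 _ ht, ?_⟩
      · rw [hψ' 1 0 f hf]
        simpa using hzf
      · rw [hψ' 1 _ t ht]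
        simpa using hzt
    refine ⟨hgz hdeg, ⟨hcurve, ?_, ?_, ?_⟩, ?_⟩
    · refine ⟨z f, hzf, fun d h hh => ?_⟩
      refine eqOn_of_refines hr (pt (hgz hdeg) ![0, 1]).toLinearMap ((z f) ^ d • x.toLinearMap)
        (fun m a ha => ?_) h hh
      rw [AlgHom.toLinearMap_apply, pt_hgz_one hdeg 0 (hr.le d m ha), hψ' d m a ha,
        LinearMap.smul_apply, AlgHom.toLinearMap_apply, smul_eq_mul]
      by_cases ha0 : a = 0
      · rw [ha0]; simp
      have h2 := (hbd d m a ha ha0).1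
      rcases h2.lt_or_eq with h3 | h3
      · rw [hxpos d m h3 a ha, mul_zero, eval_mul, eval_pow, eval_X, zero_pow (by omega), mul_zero]
      · subst h3
        obtain ⟨c, hc⟩ := hspan' d a ha
        have e1 : z a = c * z f ^ d := by rw [hc, map_smul, map_pow, smul_eq_mul]
        have e2 : x a = c := by rw [hc, map_smul, map_pow, hxf, one_pow, smul_eq_mul, mul_one]
        rw [e1, e2, Int.toNat_zero, pow_zero, mul_one, eval_C, mul_comm]
    · rintro h ⟨m, hm, hh⟩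
      have h1 := pt_hgz_infty hdeg (hr.le 1 m hh)
      rw [h1, hψ' 1 m h hh]
      by_cases ha0 : h = 0
      · rw [ha0]; simp
      have h2 := (hbd 1 m h hh ha0).1
      rw [coeff_C_mul, coeff_X_pow, if_neg (by omega), mul_zero]
    · refine T.algHom_ext_graded ℬ ?_
      rintro ⟨d, m⟩ a ha
      rw [pt_hgz_one hdeg 1 (hr.le d m ha), hψ' d m a ha]
      simp
    · rintro φ ⟨hφ, hφx, hφJ, hφz⟩
      -- both ends
      have hkey : dh φ = ψ := by
        have hv : ∀ a b : ℂ, (a ≠ 0 ∨ b ≠ 0) → ∃ m, ∃ h ∈ ℬ (1, m), pt φ ![a, b] h ≠ 0 :=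
          fun a b hab => (T.not_isVertex_iff hX'.gen (pt φ ![a, b])).1
            (fun hv => hφ.2 _ (vec_ne hab) (hr.isVertex.1 hv))
        have c1 : ∀ N : ℕ, ∀ (d : ℕ) (m : ℤ), ∀ h ∈ ℬ (d, m), (N : ℤ) ≤ m →
            X ^ N ∣ dh φ h := by
          intro N d m h hh hN
          refine contact hX' hw hH (ε := 1) (by norm_num) (γ := 0) (dh φ) ?_ ?_ N d m h hh (by
            rw [mul_zero, one_mul, sub_zero]
            exact hN)
          · rw [T.not_isVertex_iff hX'.gen]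
            obtain ⟨m', h', hh', hne⟩ := hv 0 1 (Or.inr one_ne_zero)
            refine ⟨m', h', hh', ?_⟩
            rw [at0_apply, dh_zero hφ (hr.le 1 m' hh')]
            exact hne
          · intro m' h' hh' hlt
            obtain ⟨c, -, hc⟩ := hφx
            rw [dh_zero hφ (hr.le 1 m' hh'), hc 1 h' (hr.le 1 m' hh'),
              hxpos 1 m' (by omega) h' hh', mul_zero]
        have hrev : ∀ (d : ℕ), ∀ h ∈ 𝒜 d, ∀ i ≤ d * e,
            (rev 𝒜 (dh_deg hφ) h).coeff i = (dh φ h).coeff (d * e - i) := fun d h hh i hi =>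
          rev_coeff 𝒜 (dh_deg hφ) hh hi
        have c2 : ∀ N : ℕ, ∀ (d : ℕ) (m : ℤ), ∀ h ∈ ℬ (d, m), (N : ℤ) ≤ d * e - m →
            X ^ N ∣ rev 𝒜 (dh_deg hφ) h := by
          intro N d m h hh hN
          refine contact hX' hw hH (ε := -1) (by norm_num) (γ := -e) (rev 𝒜 (dh_deg hφ)) ?_ ?_ N d m h hh (by
            rw [mul_neg]
            linarith)
          · rw [T.not_isVertex_iff hX'.gen]
            obtain ⟨m', h', hh', hne⟩ := hv 1 0 (Or.inl one_ne_zero)
            refine ⟨m', h', hh', ?_⟩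
            rw [at0_apply, hrev 1 h' (hr.le 1 m' hh') 0 (Nat.zero_le _), Nat.sub_zero,
              dh_infty hφ (hr.le 1 m' hh')]
            exact hne
          · intro m' h' hh' hlt
            rw [hrev 1 h' (hr.le 1 m' hh') 0 (Nat.zero_le _), Nat.sub_zero,
              dh_infty hφ (hr.le 1 m' hh')]
            exact hφJ h' ⟨m', by omega, hh'⟩
        refine T.algHom_ext_graded ℬ ?_
        rintro ⟨d, m⟩ a ha
        rw [hψ' d m a ha]
        by_cases ha0 : a = 0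
        · rw [ha0]; simp
        obtain ⟨h2, h3⟩ := hbd d m a ha ha0
        obtain ⟨k, rfl⟩ := Int.eq_ofNat_of_zero_le h2
        have h3' : k ≤ d * e := by exact_mod_cast h3
        have d1 := c1 k d k a ha le_rfl
        have d2 := c2 (d * e - k) d k a ha (by
          rw [Nat.cast_sub h3']
          push_cast
          exact le_rfl)
        rw [X_pow_dvd_iff] at d1 d2
        have h4 : dh φ a = C ((dh φ a).coeff k) * X ^ k := by
          ext i
          rw [coeff_C_mul, coeff_X_pow]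
          rcases lt_trichotomy i k with h5 | h5 | h5
          · rw [d1 i h5, if_neg h5.ne, mul_zero]
          · rw [h5, if_pos rfl, mul_one]
          · rw [if_neg h5.ne', mul_zero]
            rcases le_or_gt i (d * e) with h6 | h6
            · have h7 := hrev d a (hr.le d _ ha) (d * e - i) (Nat.sub_le _ _)
              rw [Nat.sub_sub_self h6] at h7
              rw [← h7]
              exact d2 _ (by omega)
            · exact coeff_eq_zero_of_natDegree_lt ((dh_deg hφ d a (hr.le d _ ha)).trans_lt h6)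
        have h5 : (dh φ a).eval 1 = z a := by
          rw [← dh_fin hφ 1 (hr.le d _ ha), hφz]
        rw [h4, eval_mul, eval_C, eval_pow, eval_X, one_pow, mul_one] at h5
        rw [h4, h5, Int.toNat_natCast]
      refine hom_ext_hom 𝒜 fun d h hh => ?_
      rw [dh_hgz hφ hh, hkey, hgz_apply hdeg hh]

end Vale.Agent.P280.S.H980
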