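import Vale.Agent.P280.S.H980.ConvC
import Vale.Agent.P280.S.H847.Main

/-! P280 S: the characterization of the compact hermitian symmetric spaces among the manifolds
with nef tangent bundle. -/

open DirectSum Polynomial

namespace Vale.Agent.P280.S

section statement

variable {R : Type} [CommRing R] [Algebra ℂ R]

/-- `X` has an action of `ℂ^*` (given by its weight spaces `ℬ (d, m)` in `R_d`) with a fixed point
`x` such that all its weights on the tangent space of `X` at `x` are equal to one. -/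
def HasHomothety (𝒜 : ℕ → Submodule ℂ R) : Prop :=
  ∃ ℬ : ℕ × ℤ → Submodule ℂ R, Nonempty (GradedAlgebra ℬ) ∧ (∀ d : ℕ, 𝒜 d = ⨆ m : ℤ, ℬ (d, m)) ∧
    ∃ x : R →ₐ[ℂ] ℂ, ¬ IsVertex 𝒜 x ∧ T.IsFixed ℬ x 0 ∧
      ∀ χ : ℤ, T.TangentWeight ℬ x 0 χ → χ = 1

/-- `X` is symmetric: for each point `z` there is an involution of `X` (and of `O(1)`) which fixes
`z` and is minus the identity on the tangent space of `X` at `z`. -/
def IsSymmetricManifold (𝒜 : ℕ → Submodule ℂ R) : Prop :=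
  ∀ z : R →ₐ[ℂ] ℂ, ¬ IsVertex 𝒜 z → ∃ F : R ≃ₐ[ℂ] R, (∀ d : ℕ, ∀ h ∈ 𝒜 d, F h ∈ 𝒜 d) ∧
    (∀ h, F (F h) = h) ∧ (∀ h, z (F h) = z h) ∧
    ∀ v : R →ₗ[ℂ] ℂ, IsTangent z v → ∃ c : ℂ, ∀ d : ℕ, ∀ h ∈ 𝒜 d, v (F h) = -v h + c * d * z h

end statement

variable {R : Type} [CommRing R] [Algebra ℂ R] {𝒜 : ℕ → Submodule ℂ R}
  {ℬ : ℕ × ℤ → Submodule ℂ R}

theorem refines_of_eq (h : ∀ d : ℕ, 𝒜 d = ⨆ m : ℤ, ℬ (d, m)) : Refines 𝒜 ℬ where
  le := fun d m => by
    rw [h d]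
    exact le_iSup (fun m => ℬ (d, m)) m
  ge := fun d => (h d).le

theorem Refines.eq (h : Refines 𝒜 ℬ) (d : ℕ) : 𝒜 d = ⨆ m : ℤ, ℬ (d, m) :=
  le_antisymm (h.ge d) (iSup_le (h.le d))

namespace H980

/-- The sign `(-1) ^ m`. -/
def sgn (m : ℤ) : ℂ := ((Int.negOnePow m : ℤˣ) : ℤ)

theorem sgn_add (m n : ℤ) : sgn (m + n) = sgn m * sgn n := by
  rw [sgn, sgn, sgn, Int.negOnePow_add]
  push_cast
  rfl

theorem sgn_sq (m : ℤ) : sgn m * sgn m = 1 := by
  rw [← sgn_add, sgn, Int.negOnePow_even _ (Even.add_self m)]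
  simp

theorem sgn_zero : sgn 0 = 1 := by
  rw [sgn, Int.negOnePow_zero]
  simp

theorem sgn_one : sgn 1 = -1 := by
  rw [sgn, Int.negOnePow_one]
  simp

variable [GradedAlgebra ℬ]

/-- The involution `(-1) ^ m`. -/
theorem exists_involution (ℬ : ℕ × ℤ → Submodule ℂ R) [GradedAlgebra ℬ] :
    ∃ F : R ≃ₐ[ℂ] R, (∀ (d : ℕ) (m : ℤ), ∀ h ∈ ℬ (d, m), F h = sgn m • h) ∧
      ∀ h, F (F h) = h := by
  obtain ⟨F, hF⟩ := T.exists_algHom ℬ (fun i : ℕ × ℤ => sgn i.2 • (LinearMap.id : R →ₗ[ℂ] R))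
    (by
      change sgn 0 • (1 : R) = 1
      rw [sgn_zero, one_smul])
    (by
      rintro ⟨d, m⟩ ⟨d', m'⟩ a _ b _
      change sgn (m + m') • (a * b) = (sgn m • a) * (sgn m' • b)
      rw [sgn_add, smul_mul_smul_comm])
  have hF' : ∀ (d : ℕ) (m : ℤ), ∀ h ∈ ℬ (d, m), F h = sgn m • h := fun d m h hh => hF (d, m) h hh
  have hFF : F.comp F = AlgHom.id ℂ R := by
    refine T.algHom_ext_graded ℬ ?_
    rintro ⟨d, m⟩ a ha
    rw [AlgHom.comp_apply, hF' d m a ha, map_smul, hF' d m a ha, smul_smul, sgn_sq, one_smul]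
    rfl
  refine ⟨AlgEquiv.ofAlgHom F F hFF hFF, hF', fun h => AlgHom.congr_fun hFF h⟩

/-- The involution is minus the identity on the tangent space at `x`. -/
theorem involution_tangent (hX : T.IsTorusManifold ℬ) {x : R →ₐ[ℂ] ℂ} (hx0 : ¬ T.IsVertex ℬ x)
    (hx : T.IsFixed ℬ x 0) (hw : ∀ χ, T.TangentWeight ℬ x 0 χ → χ = 1) {F : R ≃ₐ[ℂ] R}
    (hF : ∀ (d : ℕ) (m : ℤ), ∀ h ∈ ℬ (d, m), F h = sgn m • h) {v : R →ₗ[ℂ] ℂ}
    (hv : T.IsTangent x v) :
    ∃ c : ℂ, ∀ (d : ℕ) (m : ℤ), ∀ h ∈ ℬ (d, m), v (F h) = -v h + c * d * x h := by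
  have hsrc := isSource_one hx0 hx hw
  obtain ⟨f, hf, hxf⟩ := H939.source_s1 hX hsrc
  obtain ⟨-, hspan⟩ := H939.source_s2 hX hsrc
  refine ⟨2 * v f, fun d m h hh => ?_⟩
  rw [hF d m h hh, map_smul, smul_eq_mul]
  by_cases hm0 : m = 0
  · subst hm0
    obtain ⟨a, ha⟩ := hspan f hf (by rw [hxf]; exact one_ne_zero) d h (by rw [smul_zero]; exact hh)
    have h1 := H127.tangent_pow hv f d
    rw [hxf, one_mul, one_pow, mul_one] at h1
    have e1 : v h = a * (d * v f) := by rw [ha, map_smul, smul_eq_mul, h1]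
    have e2 : x h = a := by rw [ha, map_smul, map_pow, hxf, one_pow, smul_eq_mul, mul_one]
    rw [sgn_zero, e1, e2]
    ring
  have hxh : x h = 0 := by
    by_contra hne
    have h1 := hx d m h hh hne
    rw [smul_zero] at h1
    exact hm0 h1
  rw [hxh, mul_zero, add_zero]
  by_cases hm1 : m = 1
  · rw [hm1, sgn_one, neg_one_mul]
  -- the component of `v` of weight `m` vanishes
  have hvh : v h = 0 := by
    by_contra hne
    obtain ⟨v', h1, h2, h3⟩ := H587.exists_component hx hv m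
    have h4 := h3 d m h hh (by rw [smul_zero, zero_add])
    exact hm1 (hw m (H587.tangentWeight_of_ne hx hm0 h1 h2 d m hh (by rw [h4]; exact hne)))
  rw [hvh, mul_zero, neg_zero]

/-- The inverse of a graded automorphism is graded. -/
theorem symm_mem [GradedAlgebra 𝒜] {G : R ≃ₐ[ℂ] R} (hG : ∀ d : ℕ, ∀ h ∈ 𝒜 d, G h ∈ 𝒜 d) (d : ℕ)
    (h : R) (hh : h ∈ 𝒜 d) : G.symm h ∈ 𝒜 d := by
  classical
  have h1 : ∀ (u : R) (i : ℕ), (decompose 𝒜 (G u) i : R) = G (decompose 𝒜 u i : R) := by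
    intro u i
    induction u using DirectSum.Decomposition.inductionOn 𝒜 with
    | zero => simp
    | @homogeneous j a =>
      by_cases hij : j = i
      · subst hij
        rw [decompose_of_mem_same 𝒜 (hG j a a.2), decompose_of_mem_same 𝒜 a.2]
      · rw [decompose_of_mem_ne 𝒜 (hG j a a.2) hij, decompose_of_mem_ne 𝒜 a.2 hij, map_zero]
    | add a b ha hb =>
      rw [map_add, decompose_add, decompose_add, DirectSum.add_apply, DirectSum.add_apply,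
        Submodule.coe_add, Submodule.coe_add, ha, hb, map_add]
  have h2 := h1 (G.symm h) d
  rw [AlgEquiv.apply_symm_apply, decompose_of_mem_same 𝒜 hh] at h2
  rw [h2, AlgEquiv.symm_apply_apply]
  exact SetLike.coe_mem _

theorem symmetric_of_homothety [GradedAlgebra 𝒜] (hr : Refines 𝒜 ℬ) (hX : IsProjectiveManifold 𝒜)
    (ht : IsTransitive 𝒜) {x : R →ₐ[ℂ] ℂ} (hx0 : ¬ IsVertex 𝒜 x)
    (hx : T.IsFixed ℬ x 0) (hw : ∀ χ, T.TangentWeight ℬ x 0 χ → χ = 1) :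
    IsSymmetricManifold 𝒜 := by
  intro z hz
  have hx0' : ¬ T.IsVertex ℬ x := fun h => hx0 (hr.isVertex.1 h)
  obtain ⟨F, hF, hFF⟩ := exists_involution ℬ
  have hFA : ∀ d : ℕ, ∀ h ∈ 𝒜 d, F h ∈ 𝒜 d := by
    intro d h hh
    have h1 : 𝒜 d ≤ (𝒜 d).comap F.toLinearMap := hr.sub fun m a ha => by
      rw [Submodule.mem_comap]
      change F a ∈ 𝒜 d
      rw [hF d m a ha]
      exact Submodule.smul_mem _ _ (hr.le d m ha)
    exact h1 hh
  have hFx : ∀ h, x (F h) = x h := by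
    have h1 : x.comp (F : R →ₐ[ℂ] R) = x := by
      refine T.algHom_ext_graded ℬ ?_
      rintro ⟨d, m⟩ a ha
      change x (F a) = x a
      rw [hF d m a ha, map_smul]
      by_cases hne : x a = 0
      · rw [hne, smul_zero]
      · have h2 := hx d m a ha hne
        rw [smul_zero] at h2
        rw [h2, sgn_zero, one_smul]
    exact fun h => AlgHom.congr_fun h1 h
  obtain ⟨G, hG, hGx⟩ := ht x z hx0 hz
  have hGs := symm_mem hG
  refine ⟨(G.trans F).trans G.symm, fun d h hh => ?_, fun h => ?_, fun h => ?_, fun v hv => ?_⟩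
  · change G.symm (F (G h)) ∈ 𝒜 d
    exact hGs d _ (hFA d _ (hG d h hh))
  · change G.symm (F (G (G.symm (F (G h))))) = h
    rw [AlgEquiv.apply_symm_apply, hFF, AlgEquiv.symm_apply_apply]
  · change z (G.symm (F (G h))) = z h
    rw [hGx, AlgEquiv.apply_symm_apply, hFx, ← hGx]
  · let w : R →ₗ[ℂ] ℂ := v.comp G.symm.toLinearMap
    have hw' : T.IsTangent x w := by
      intro a b
      change v (G.symm (a * b)) = x a * v (G.symm b) + x b * v (G.symm a)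
      rw [map_mul, hv, hGx, hGx, AlgEquiv.apply_symm_apply, AlgEquiv.apply_symm_apply]
    obtain ⟨c, hc⟩ := involution_tangent (hr.isTorusManifold hX) hx0' hx hw hF hw'
    refine ⟨c, fun d h hh => ?_⟩
    have h1 := eqOn_of_refines hr (w.comp F.toLinearMap)
      (-w + (c * d) • x.toLinearMap) (fun m a ha => hc d m a ha) (G h) (hG d h hh)
    change v (G.symm (F (G h))) = -v h + c * d * z h
    change v (G.symm (F (G h))) = -v (G.symm (G h)) + c * d * x (G h) at h1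
    rw [h1, AlgEquiv.symm_apply_apply, hGx]

end H980

variable [GradedAlgebra 𝒜]

/-- From curves to the action. -/
theorem hasHomothety_of_isGood (hX : IsProjectiveManifold 𝒜) (hN : NefOnRationalCurves 𝒜)
    {x : R →ₐ[ℂ] ℂ} {J : Set R} {e : ℕ} (hG : IsGood 𝒜 x J e) : HasHomothety 𝒜 := by
  haveI := hX.domain
  haveI := hX.finiteType
  have hgood := good_of_isGood hX.gen hG
  obtain ⟨φ₀, hφ₀⟩ := exists_sol_frac hX.finiteType hX.gen hgood
  obtain ⟨φ, hφ⟩ := H348.exists_univ hX hgood hφ₀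
  have hc := hφ.coaction hgood
  letI := H265.gradedAlgebra_bi hc
  obtain ⟨L, hL1, hL0, hxL, -, hL⟩ := H265.exists_lam hφ hgood.nv hc
  refine ⟨H265.bi 𝒜 φ, ⟨inferInstance⟩, (refines_bi hc).eq, x, hG.notVertex,
    H265.fixed_x hL0 hL, fun χ hχ => ?_⟩
  exact weights_eq_one (refines_bi hc) hX hN hgood.nv hgood.min
    (H265.fixed_x hL0 hL) (fun χ hχ => by
      have := H265.pos_x hL0 hxL hL hχ
      omega)
    (fun q μ hq hfix => H348.chain_of_fixed hX hgood hφ hc hq hfix) hχ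

/-- **Theorem S, final form.** -/
theorem characterization (hX : IsProjectiveManifold 𝒜) (hN : NefOnRationalCurves 𝒜) :
    ((∃ (x : R →ₐ[ℂ] ℂ) (J : Set R) (e : ℕ), IsGood 𝒜 x J e) ↔ HasHomothety 𝒜) ∧
      (HasHomothety 𝒜 → IsHomogeneousManifold 𝒜 ∧ IsTransitive 𝒜 ∧ IsSymmetricManifold 𝒜) := by
  have key : ∀ {ℬ : ℕ × ℤ → Submodule ℂ R} [GradedAlgebra ℬ] (_ : Refines 𝒜 ℬ) {x : R →ₐ[ℂ] ℂ}
      (_ : ¬ IsVertex 𝒜 x) (_ : T.IsFixed ℬ x 0) (_ : ∀ χ, T.TangentWeight ℬ x 0 χ → χ = 1),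
      T.IsHomogeneousManifold ℬ ∧ IsTransitive 𝒜 := by
    intro ℬ _ hr x hx0 hx hw
    obtain ⟨h1, h2⟩ := H812.homothety_ne H812.rowG_all (hr.isTorusManifold hX) (hr.nef hN)
      (l := AddMonoidHom.id ℤ) (a := 1) one_ne_zero (fun h => hx0 (hr.isVertex.1 h)) hx
      (fun χ hχ => hw χ hχ)
    exact ⟨h1, hr.transitive h2⟩
  refine ⟨⟨?_, ?_⟩, ?_⟩
  · rintro ⟨x, J, e, h⟩
    exact hasHomothety_of_isGood hX hN h
  · rintro ⟨ℬ, ⟨hB⟩, hr, x, hx0, hx, hw⟩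
    have hr' := refines_of_eq hr
    obtain ⟨J, e, h⟩ := H980.exists_isGood hr' hX hN (key hr' hx0 hx hw).1
      (fun h => hx0 (hr'.isVertex.1 h)) hx hw
    exact ⟨x, J, e, h⟩
  · rintro ⟨ℬ, ⟨hB⟩, hr, x, hx0, hx, hw⟩
    have hr' := refines_of_eq hr
    obtain ⟨h1, h2⟩ := key hr' hx0 hx hw
    exact ⟨hr'.homogeneous h1, h2, H980.symmetric_of_homothety hr' hX h2 hx0 hx hw⟩

end Vale.Agent.P280.S
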